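import Mathlib

/-!
P120 (David-Semmes problem): internal definitions. Overview in notes/P120.md.
-/

open MeasureTheory Metric Set Filter Topology
open scoped ENNReal NNReal RealInnerProductSpace

namespace Vale.Agent.P120

abbrev E (d : ℕ) := EuclideanSpace ℝ (Fin d)

variable {d : ℕ}

/-- regularised distance sqrt(|z|^2 + t^2) -/
noncomputable def rr (t : ℝ) (z : E d) : ℝ := √(‖z‖ ^ 2 + t ^ 2)

/-- scalar kernel (|z|^2 + t^2)^(-(n+1)/2) -/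
noncomputable def kk (n : ℕ) (t : ℝ) (z : E d) : ℝ := (rr t z ^ (n + 1))⁻¹

/-- regularised Riesz kernel -/
noncomputable def KK (n : ℕ) (t : ℝ) (z : E d) : E d := kk n t z • z

/-- weight (1 + |y|)^(-m) -/
noncomputable def ww (m : ℕ) (y : E d) : ℝ := ((1 + ‖y‖) ^ m)⁻¹

/-- upper growth at every point and every radius -/
def Up (n : ℕ) (A : ℝ) (μ : Measure (E d)) : Prop :=
  ∀ x : E d, ∀ r : ℝ, 0 < r → μ (ball x r) ≤ ENNReal.ofReal (A * r ^ n)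

/-- lower growth on the support, radii up to ρ -/
def Low (n : ℕ) (A ρ : ℝ) (μ : Measure (E d)) : Prop :=
  ∀ x ∈ μ.support, ∀ r : ℝ, 0 < r → r ≤ ρ → ENNReal.ofReal (A⁻¹ * r ^ n) ≤ μ (ball x r)

/-- L-Lipschitz test function vanishing outside the open ball B(x,s), bounded by L s -/
def Test (ψ : E d → ℝ) (x : E d) (s L : ℝ) : Prop :=
  0 ≤ L ∧ (∀ y z, |ψ y - ψ z| ≤ L * dist y z) ∧ (∀ y, |ψ y| ≤ L * s) ∧
    ∀ y, s ≤ dist y x → ψ y = 0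

/-- bump equal to 1 on closedBall x (r/2), 0 outside ball x r -/
noncomputable def bump (x : E d) (r : ℝ) (y : E d) : ℝ := max 0 (min 1 (2 - 2 * dist y x / r))

/-- integrand of the renormalised Riesz form -/
noncomputable def lamI (n : ℕ) (a : E d) (t δ : ℝ) (ψ : E d → ℝ) (z : E d × E d) : E d :=
  (ψ z.1 - ψ z.2) • KK n δ (z.1 - z.2) - ψ z.1 • KK n t (a - z.2) - ψ z.2 • KK n t (a - z.1)

/-- renormalised Riesz form: the Riesz transform of μ tested against ψ -/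
noncomputable def Lam (n : ℕ) (μ : Measure (E d)) (a : E d) (t δ : ℝ) (ψ : E d → ℝ) : E d :=
  (1 / 2 : ℝ) • ∫ z, lamI n a t δ ψ z ∂(μ.prod μ)

/-- H^(1/2) energy -/
noncomputable def En (n : ℕ) (μ : Measure (E d)) (ψ : E d → ℝ) : ℝ :=
  ∫ z : E d × E d, kk n 0 (z.1 - z.2) * (ψ z.1 - ψ z.2) ^ 2 ∂(μ.prod μ)

/-- defect at most ν in the ball B(x,s) -/
def Dfc (n : ℕ) (μ : Measure (E d)) (x : E d) (s ν : ℝ) : Prop :=
  ∀ (ψ : E d → ℝ) (L : ℝ), Test ψ x s L → ∫ y, ψ y ∂μ = 0 →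
    ‖Lam n μ x s 0 ψ‖ ≤ ν * √(s ^ n) * (√(s * En n μ ψ) + √(∫ y, ψ y ^ 2 ∂μ))

/-- almost reflectionless at (x,s) with parameter ν -/
def HH (n : ℕ) (A : ℝ) (μ : Measure (E d)) (x : E d) (s ν : ℝ) : Prop :=
  Up n A μ ∧ (∀ ρ : ℝ, ρ * ν ≤ s → Low n A ρ μ) ∧ x ∈ μ.support ∧ 0 ≤ ν ∧
    ∀ m : ℕ, 2 ^ m * ν ≤ 1 → Dfc n μ x (2 ^ m * s) (2 ^ m * ν)

/-- reflectionless -/
def Rfl (n : ℕ) (μ : Measure (E d)) : Prop :=
  ∀ (ψ : E d → ℝ) (R L : ℝ), 0 < R → Test ψ 0 R L → ∫ y, ψ y ∂μ = 0 → Lam n μ 0 1 0 ψ = 0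

/-- regular at all scales and reflectionless -/
def RR (n : ℕ) (A : ℝ) (μ : Measure (E d)) : Prop :=
  Up n A μ ∧ (∀ ρ : ℝ, Low n A ρ μ) ∧ Rfl n μ

/-- normal component of y - p with respect to V; its norm is the distance to the plane p + V -/
noncomputable def hh (p : E d) (V : Submodule ℝ (E d)) (y : E d) : E d :=
  Vᗮ.starProjection (y - p)

/-- orthogonal projection onto the affine plane p + V -/
noncomputable def pj (p : E d) (V : Submodule ℝ (E d)) (y : E d) : E d := y - hh p V y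

/-- squared excess at centre x and scale s with respect to the plane p + V -/
noncomputable def ex (n : ℕ) (μ : Measure (E d)) (x : E d) (s : ℝ) (p : E d)
    (V : Submodule ℝ (E d)) : ℝ :=
  (s ^ (n + 2))⁻¹ * ∫ y, ‖hh p V y‖ ^ 2 * ((1 + ‖y - x‖ / s) ^ (n + 3))⁻¹ ∂μ

/-- some n-plane has excess at most ε -/
def Flat (n : ℕ) (μ : Measure (E d)) (x : E d) (s ε : ℝ) : Prop :=
  ∃ (p : E d) (V : Submodule ℝ (E d)), Module.finrank ℝ V = n ∧ ex n μ x s p V ≤ ε ^ 2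

/-- weak convergence of measures of n-growth along a filter -/
def Conv (n : ℕ) (A : ℝ) (l : Filter ℕ) (μs : ℕ → Measure (E d)) (μ : Measure (E d)) : Prop :=
  (∀ k, Up n A (μs k)) ∧ Up n A μ ∧
    ∀ φ : E d → ℝ, Continuous φ → (∃ C : ℝ, ∀ y, |φ y| ≤ C * ww (n + 1) y) →
      Tendsto (fun k => ∫ y, φ y ∂(μs k)) l (𝓝 (∫ y, φ y ∂μ))

/-- weak convergence of the functions us k (with respect to μs k) to u -/
def WConv (n : ℕ) (l : Filter ℕ) (μs : ℕ → Measure (E d)) (μ : Measure (E d))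
    (us : ℕ → E d → ℝ) (u : E d → ℝ) : Prop :=
  ∀ φ : E d → ℝ, Continuous φ → (∃ C : ℝ, ∀ y, |φ y| ≤ C * ww (n + 2) y) →
    Tendsto (fun k => ∫ y, us k y * φ y ∂(μs k)) l (𝓝 (∫ y, u y * φ y ∂μ))

/-- weighted L2 bound -/
def WL2 (n : ℕ) (μ : Measure (E d)) (u : E d → ℝ) (B : ℝ) : Prop :=
  Measurable u ∧ Integrable (fun y => u y ^ 2 * ww (n + 3) y) μ ∧
    ∫ y, u y ^ 2 * ww (n + 3) y ∂μ ≤ B

/-- regularised half Laplacian -/
noncomputable def LL (n : ℕ) (μ : Measure (E d)) (δ : ℝ) (ψ : E d → ℝ) (y : E d) : ℝ :=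
  ∫ x, kk n δ (y - x) * (ψ y - ψ x) ∂μ

/-- similarity y ↦ U (y - x) / s -/
noncomputable def sim (x : E d) (s : ℝ) (U : E d ≃ₗᵢ[ℝ] E d) (y : E d) : E d := s⁻¹ • U (y - x)

/-- rescaled measure -/
noncomputable def resc (n : ℕ) (μ : Measure (E d)) (x : E d) (s : ℝ) (U : E d ≃ₗᵢ[ℝ] E d) :
    Measure (E d) :=
  (ENNReal.ofReal (s ^ n))⁻¹ • μ.map (sim x s U)

/-- the Riesz transform of μ near B(x0,r0) is an L2 function up to a smooth error -/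
def GoodF (n : ℕ) (μ : Measure (E d)) (x0 : E d) (r0 C : ℝ) : Prop :=
  ∃ f : E d → E d, MemLp f 2 μ ∧ ∫ y, ‖f y‖ ^ 2 ∂μ ≤ C * r0 ^ n ∧
    ∀ x ∈ ball x0 r0, ∀ s : ℝ, 0 < s → s ≤ r0 → ∀ (ψ : E d → ℝ) (L : ℝ), Test ψ x s L →
      ∫ y, ψ y ∂μ = 0 → ‖Lam n μ x s 0 ψ - ∫ y, ψ y • f y ∂μ‖ ≤ C * (s / r0) * ∫ y, |ψ y| ∂μ

/-- dyadic scale 2^(-i) -/
noncomputable def sc (i : ℕ) : ℝ := (1 / 2 : ℝ) ^ i

/-- tail sum of squares from level i on -/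
noncomputable def tl (nn : E d → ℕ → ℝ) (x : E d) (i : ℕ) : ℝ≥0∞ :=
  ∑' l : ℕ, ENNReal.ofReal (nn x (i + l) ^ 2)

/-- a big measurable piece of F that embeds into the ball of radius s of R^n by a map whose
inverse is M-Lipschitz -/
def Piece (n : ℕ) (μ : Measure (E d)) (F : Set (E d)) (s θ M : ℝ) : Prop :=
  ∃ F' ⊆ F, MeasurableSet F' ∧ ENNReal.ofReal (θ * s ^ n) ≤ μ F' ∧
    ∃ π : E d → E n, (∀ x ∈ F', ‖π x‖ ≤ s) ∧
      ∀ x ∈ F', ∀ y ∈ F', dist x y ≤ M * dist (π x) (π y)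

/-- C2 function whose derivatives up to order 2 are bounded by B (1+|x|)^(-N) -/
def Dec (N : ℕ) (u : E d → ℝ) (B : ℝ) : Prop :=
  ContDiff ℝ 2 u ∧ ∀ j ≤ 2, ∀ x, (1 + ‖x‖) ^ N * ‖iteratedFDeriv ℝ j u x‖ ≤ B

/-- h is annihilated by the half Laplacian, tested on mean zero C2 functions of compact support -/
def Harm (n : ℕ) (h : E n → ℝ) : Prop :=
  ∀ ψ : E n → ℝ, ContDiff ℝ 2 ψ → HasCompactSupport ψ → ∫ y, ψ y = 0 →
    Tendsto (fun δ : ℝ => ∫ y, h y * LL n volume δ ψ y) (𝓝[>] 0) (𝓝 0)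

/-- two planes are b-close at centre x and scale t -/
def Near (p : E d) (V : Submodule ℝ (E d)) (p' : E d) (V' : Submodule ℝ (E d)) (x : E d)
    (t b : ℝ) : Prop :=
  ‖V.starProjection - V'.starProjection‖ ≤ b ∧
    ∀ y, dist y x ≤ 4 * t → ‖pj p V y - pj p' V' y‖ ≤ b * t

/-- index of the cube of side 8 * 2^(-j) containing x, in the lattice shifted by α/3 -/
noncomputable def idx (α : Fin d → Bool) (j : ℕ) (x : E d) : Fin d → ℤ :=
  fun c => ⌊2 ^ j * x c / 8 - (-1) ^ j * (if α c then (1 / 3 : ℝ) else 0)⌋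

end Vale.Agent.P120
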